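import Vale.Agent.P229.Edge.Mult

/-
P229, EdgeSpec: the edge curve and the pointwise island estimate.
-/

namespace Vale.Agent.P229.Edge

open scoped ContDiff

variable {δ Γ g : ℝ} {κ ν G G1 : P2 → ℝ}

lemma lip_disc {f : P2 → ℝ} {D : ℝ} (hf : ∀ z, DifferentiableAt ℝ f z)
    (hd : ∀ z, rsq z ≤ 4 → |dp f z| ≤ D ∧ |dy f z| ≤ D) {a b : P2} (ha : rsq a ≤ 4)
    (hb : rsq b ≤ 4) : |f a - f b| ≤ 2 * D * (|a.1 - b.1| + |a.2 - b.2|) := by
  have hconv : Convex ℝ {z : P2 | rsq z ≤ 4} := by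
    intro x hx y hy s t hs ht hst
    simp only [Set.mem_setOf_eq, rsq, Prod.fst_add, Prod.snd_add, Prod.smul_fst, Prod.smul_snd,
      smul_eq_mul] at *
    have h1 : (s * x.1 + t * y.1) ^ 2 ≤ s * x.1 ^ 2 + t * y.1 ^ 2 := by
      have : t = 1 - s := by linarith
      subst this
      nlinarith [mul_nonneg (mul_nonneg hs ht) (sq_nonneg (x.1 - y.1))]
    have h2 : (s * x.2 + t * y.2) ^ 2 ≤ s * x.2 ^ 2 + t * y.2 ^ 2 := by
      have : t = 1 - s := by linarith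
      subst this
      nlinarith [mul_nonneg (mul_nonneg hs ht) (sq_nonneg (x.2 - y.2))]
    nlinarith [mul_le_mul_of_nonneg_left hx hs, mul_le_mul_of_nonneg_left hy ht]
  have hD : 0 ≤ D := (abs_nonneg _).trans (hd a ha).1
  have hbound : ∀ z ∈ {z : P2 | rsq z ≤ 4}, ‖fderiv ℝ f z‖ ≤ 2 * D := by
    intro z hz
    obtain ⟨h1, h2⟩ := hd z hz
    refine ContinuousLinearMap.opNorm_le_bound _ (by linarith) fun v => ?_
    have e : fderiv ℝ f z v = v.1 * dp f z + v.2 * dy f z := by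
      rw [HasFDerivAt.fderiv (PD.of (hf z))]
      simp
      ring
    rw [e, Real.norm_eq_abs]
    have v1 : |v.1| ≤ ‖v‖ := norm_fst_le v
    have v2 : |v.2| ≤ ‖v‖ := norm_snd_le v
    exact (abs_add' (abs_mul' v1 h1) (abs_mul' v2 h2)).trans (le_of_eq (by ring))
  have h := hconv.norm_image_sub_le_of_norm_fderiv_le (fun z _ => hf z) hbound hb ha
  rw [Real.norm_eq_abs] at h
  refine h.trans (mul_le_mul_of_nonneg_left ?_ (by linarith))
  rw [Prod.norm_def]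
  simp only [Prod.fst_sub, Prod.snd_sub, Real.norm_eq_abs]
  exact max_le (le_add_of_nonneg_right (abs_nonneg _)) (le_add_of_nonneg_left (abs_nonneg _))

/-- Shifted curvature coefficient. -/
noncomputable def kt (η : ℝ) (κ ν : P2 → ℝ) (z : P2) : ℝ := κ z - η * ν z ^ 2 / 4

/-- The data of an edge at height `e0`. -/
structure EdgeData (η δ e0 : ℝ) (κ ν : P2 → ℝ) (ym yp A A' : ℝ) : Prop where
  hyp : 0.9 ≤ yp ∧ yp ≤ 1.1
  hym : -1.1 ≤ ym ∧ ym ≤ -0.9
  kp : kt η κ ν (e0, yp) = 0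
  km : kt η κ ν (e0, ym) = 0
  slp : edgeD ym yp A A' yp = η * ν (e0, yp) / 2
  slm : edgeD ym yp A A' ym = η * ν (e0, ym) / 2
  hA : |A| ≤ η * δ / 6
  hA' : |A'| ≤ η * δ / 6

lemma exists_edgeData {η e0 : ℝ} (hη : 0 < η) (hη1 : η ≤ 1 / 1000000) (hδ : δ ≤ 1 / 10000)
    (hk : Continuous κ) (hn : Continuous ν) (he : |e0| ≤ 1 / 100)
    (hc : CoefClose δ Γ g κ ν G G1) : ∃ ym yp A A', EdgeData η δ e0 κ ν ym yp A A' := by
  have he2 : e0 ^ 2 ≤ (1 / 100) ^ 2 := by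
    rw [← sq_abs]; exact pow_le_pow_left₀ (abs_nonneg _) he 2
  have hs : ∀ y : ℝ, |y| ≤ 1.1 → rsq (e0, y) ≤ 4 := by
    intro y hy
    simp only [rsq]
    norm_num [abs_le] at hy
    nlinarith
  have hcont : Continuous fun y : ℝ => kt η κ ν (e0, y) := by
    unfold kt
    have h1 : Continuous fun y : ℝ => ((e0, y) : P2) := by fun_prop
    exact (hk.comp h1).sub (((continuous_const.mul ((hn.comp h1).pow 2))).div_const 4)
  have hval : ∀ y : ℝ, |y| ≤ 1.1 →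
      |kt η κ ν (e0, y) - (y ^ 2 + e0 ^ 2 - 1)| ≤ 1 / 1000 := by
    intro y hy
    obtain ⟨h1, -, -, h4, -⟩ := hc (e0, y) (hs y hy)
    have t : |η * ν (e0, y) ^ 2 / 4| ≤ η * δ ^ 2 / 4 :=
      abs_div' (abs_mul' (abs_of_pos hη).le
        ((abs_pow _ 2).le.trans (pow_le_pow_left₀ (abs_nonneg _) h4 2))) (by norm_num)
    have hδ0 : 0 ≤ δ := (abs_nonneg _).trans h4
    have : η * δ ^ 2 ≤ 1 * (1 / 10000) ^ 2 :=
      mul_le_mul (by linarith) (pow_le_pow_left₀ hδ0 hδ 2) (sq_nonneg _) (by norm_num)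
    simp only [rsq, kt] at *
    rw [abs_le] at h1 t ⊢
    constructor <;> linarith
  obtain ⟨yp, hyp, kp⟩ : ∃ y ∈ Set.Icc (0.9 : ℝ) 1.1, kt η κ ν (e0, y) = 0 := by
    refine intermediate_value_Icc (by norm_num) hcont.continuousOn ⟨?_, ?_⟩
    · have h := hval 0.9 (by norm_num [abs_of_nonneg])
      rw [abs_le] at h; norm_num at h ⊢; linarith
    · have h := hval 1.1 (by norm_num [abs_of_nonneg])
      rw [abs_le] at h; norm_num at h ⊢; nlinarith
  obtain ⟨ym, hym, km⟩ : ∃ y ∈ Set.Icc (-1.1 : ℝ) (-0.9), kt η κ ν (e0, y) = 0 := by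
    refine intermediate_value_Icc' (by norm_num) hcont.continuousOn ⟨?_, ?_⟩
    · have h := hval (-0.9) (by norm_num [abs_of_nonneg])
      rw [abs_le] at h; norm_num at h ⊢; linarith
    · have h := hval (-1.1) (by norm_num [abs_of_nonneg])
      rw [abs_le] at h; norm_num at h ⊢; nlinarith
  have hd : 1.8 ≤ yp - ym := by
    have := hyp.1; have := hym.2; norm_num at *; linarith
  have hd2 : 3 ≤ (yp - ym) ^ 2 := by norm_num at hd; nlinarith
  have hd0 : (yp - ym) ^ 2 ≠ 0 := by linarith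
  refine ⟨ym, yp, η * ν (e0, yp) / 2 / (yp - ym) ^ 2, η * ν (e0, ym) / 2 / (yp - ym) ^ 2,
    hyp, hym, kp, km, ?_, ?_, ?_, ?_⟩
  · simp only [edgeD]; field_simp; ring
  · simp only [edgeD]; field_simp; ring
  all_goals
    rw [abs_div, abs_div, abs_of_pos (show (0:ℝ) < 2 by norm_num),
      abs_of_pos (show 0 < (yp - ym) ^ 2 by linarith), div_div, div_le_div_iff₀ (by linarith)
      (by norm_num)]
  · have h4 := (hc (e0, yp) (hs yp (by
      rw [abs_le]; have := hyp.1; have := hyp.2; norm_num at *; constructor <;> linarith))).2.2.2.1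
    have := mul_le_mul (abs_mul' (abs_of_pos hη).le h4) (show (6:ℝ) ≤ 2 * (yp - ym) ^ 2 by linarith)
      (by norm_num) (mul_nonneg hη.le ((abs_nonneg _).trans h4))
    linarith
  · have h4 := (hc (e0, ym) (hs ym (by
      rw [abs_le]; have := hym.1; have := hym.2; norm_num at *; constructor <;> linarith))).2.2.2.1
    have := mul_le_mul (abs_mul' (abs_of_pos hη).le h4) (show (6:ℝ) ≤ 2 * (yp - ym) ^ 2 by linarith)
      (by norm_num) (mul_nonneg hη.le ((abs_nonneg _).trans h4))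
    linarith

variable {η e0 ym yp A A' : ℝ}

lemma EdgeData.near (h : EdgeData η δ e0 κ ν ym yp A A') {y : ℝ} (hy : |y| ≤ 1.7) :
    |y - yp| ≤ 2.8 ∧ |y - ym| ≤ 2.8 := by
  obtain ⟨⟨a1, a2⟩, ⟨a3, a4⟩, -⟩ := h
  rw [abs_le] at hy
  rw [abs_le, abs_le]
  norm_num at *
  refine ⟨⟨?_, ?_⟩, ?_, ?_⟩ <;> linarith

lemma EdgeData.height (h : EdgeData η δ e0 κ ν ym yp A A') {y : ℝ} (hy : |y| ≤ 1.7) :
    |edge e0 ym yp A A' y - e0| ≤ 3 * η * δ * |y - yp| ∧
    |edge e0 ym yp A A' y - e0| ≤ 3 * η * δ * |y - ym| ∧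
    |edge e0 ym yp A A' y - e0| ≤ 9 * η * δ := by
  obtain ⟨hp, hm⟩ := h.near hy
  have hηδ : 0 ≤ η * δ := by linarith [(abs_nonneg A).trans h.hA]
  have e : edge e0 ym yp A A' y - e0
      = (y - yp) * (y - ym) * (A * (y - ym) + A' * (y - yp)) := by unfold edge; ring
  have e' : (y - yp) * (y - ym) * (A * (y - ym) + A' * (y - yp))
      = (y - ym) * (y - yp) * (A * (y - ym) + A' * (y - yp)) := by ring
  have l := abs_add' (abs_mul' h.hA hm) (abs_mul' h.hA' hp)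
  have t1 := abs_mul' (abs_mul' (le_refl |y - yp|) hm) l
  have t2 := abs_mul' (abs_mul' (le_refl |y - ym|) hp) l
  norm_num [-abs_mul] at t1 t2 hp
  have n1 := mul_nonneg hηδ (abs_nonneg (y - yp))
  have n2 := mul_nonneg hηδ (abs_nonneg (y - ym))
  rw [e]
  refine ⟨t1.trans (by linarith), e' ▸ t2.trans (by linarith), t1.trans ?_⟩
  have := mul_le_mul_of_nonneg_left hp hηδ
  linarith

lemma EdgeData.slope (h : EdgeData η δ e0 κ ν ym yp A A') {y : ℝ} (hy : |y| ≤ 1.7) :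
    |edgeD ym yp A A' y - η * ν (e0, yp) / 2| ≤ 4 * η * δ * |y - yp| ∧
    |edgeD ym yp A A' y - η * ν (e0, ym) / 2| ≤ 4 * η * δ * |y - ym| := by
  obtain ⟨hp, hm⟩ := h.near hy
  obtain ⟨⟨a1, a2⟩, ⟨a3, a4⟩, -⟩ := id h
  have hd : |yp - ym| ≤ 2.2 := by rw [abs_le]; norm_num at *; constructor <;> linarith
  have h2 : |(2 : ℝ)| ≤ 2 := by norm_num
  rw [← h.slp, ← h.slm]
  have e1 : edgeD ym yp A A' y - edgeD ym yp A A' yp
      = (y - yp) * (A * (2 * (y - ym) + ((y - ym) + (yp - ym)))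
          + A' * (2 * (y - ym) + (y - yp))) := by
    unfold edgeD; ring
  have e2 : edgeD ym yp A A' y - edgeD ym yp A A' ym
      = (y - ym) * (A' * (2 * (y - yp) + ((y - yp) - (yp - ym)))
          + A * (2 * (y - yp) + (y - ym))) := by
    unfold edgeD; ring
  have t1 := abs_mul' (le_refl |y - yp|)
    (abs_add' (abs_mul' h.hA (abs_add' (abs_mul' h2 hm) (abs_add' hm hd)))
      (abs_mul' h.hA' (abs_add' (abs_mul' h2 hm) hp)))
  have t2 := abs_mul' (le_refl |y - ym|)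
    (abs_add' (abs_mul' h.hA' (abs_add' (abs_mul' h2 hp) (abs_sub' hp hd)))
      (abs_mul' h.hA (abs_add' (abs_mul' h2 hp) hm)))
  have hηδ : 0 ≤ η * δ := by linarith [(abs_nonneg A).trans h.hA]
  have n1 := mul_nonneg hηδ (abs_nonneg (y - yp))
  have n2 := mul_nonneg hηδ (abs_nonneg (y - ym))
  norm_num [-abs_mul] at t1 t2
  rw [e1, e2]
  exact ⟨t1.trans (by linarith), t2.trans (by linarith)⟩

/-- The slope error is controlled by the shifted curvature and the depth. -/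
lemma slope_error (hη : 0 < η) (hη1 : η ≤ 1 / 1000000) (hδ : δ ≤ 1 / 10000)
    (hk : ∀ z, DifferentiableAt ℝ κ z) (hn : ∀ z, DifferentiableAt ℝ ν z)
    (hc : CoefClose δ Γ g κ ν G G1) (he : |e0| ≤ 1 / 100)
    (h : EdgeData η δ e0 κ ν ym yp A A') {z : P2} (hr : rsq z ≤ 2.8)
    (hz : z.1 ≤ edge e0 ym yp A A' z.2) :
    |edgeD ym yp A A' z.2 - η * ν z / 2|
      ≤ 10 * η * (|kt η κ ν z| + (edge e0 ym yp A A' z.2 - z.1)) := by
  have hr4 : rsq z ≤ 4 := by norm_num at hr ⊢; linarith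
  have hy17 : |z.2| ≤ 1.7 := by
    simp only [rsq] at hr
    rw [abs_le]
    norm_num at hr ⊢
    constructor <;> nlinarith [sq_nonneg z.1]
  have hp17 : |z.1| ≤ 1.7 := by
    simp only [rsq] at hr
    rw [abs_le]
    norm_num at hr ⊢
    constructor <;> nlinarith [sq_nonneg z.2]
  obtain ⟨ys, hys, hsum, ks, hh, hsl⟩ : ∃ ys : ℝ, |ys| ≤ 1.1 ∧ 0.9 ≤ |z.2 + ys| ∧
      kt η κ ν (e0, ys) = 0 ∧
      |edge e0 ym yp A A' z.2 - e0| ≤ 3 * η * δ * |z.2 - ys| ∧
      |edgeD ym yp A A' z.2 - η * ν (e0, ys) / 2| ≤ 4 * η * δ * |z.2 - ys| := by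
    obtain ⟨a1, a2⟩ := h.hyp
    obtain ⟨a3, a4⟩ := h.hym
    rcases le_total 0 z.2 with hs | hs
    · refine ⟨yp, ?_, ?_, h.kp, (h.height hy17).1, (h.slope hy17).1⟩
      · rw [abs_le]; norm_num at *; constructor <;> linarith
      · exact le_trans (by norm_num at *; linarith) (le_abs_self _)
    · refine ⟨ym, ?_, ?_, h.km, (h.height hy17).2.1, (h.slope hy17).2⟩
      · rw [abs_le]; norm_num at *; constructor <;> linarith
      · exact le_trans (by norm_num at *; linarith) (neg_le_abs _)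
  have hs4 : rsq ((e0, ys) : P2) ≤ 4 := by
    simp only [rsq]
    rw [abs_le] at hys he
    norm_num at hys
    nlinarith
  set u := |z.2 - ys| with hu
  set d := |z.1 - e0| with hd'
  set Z := edge e0 ym yp A A' z.2 - z.1 with hZ
  have hu0 : 0 ≤ u := abs_nonneg _
  have hd0 : 0 ≤ d := abs_nonneg _
  have hd : d ≤ Z + 3 * η * δ * u := by
    rw [hd', abs_le]; rw [abs_le] at hh; constructor <;> linarith
  have hδ0 : 0 ≤ δ := (abs_nonneg _).trans (hc z hr4).2.2.2.1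
  have lν := lip_disc hn (fun x hx => ⟨(hc x hx).2.2.2.2.1, (hc x hx).2.2.2.2.2.1⟩) hr4 hs4
  have lκ := lip_disc (f := fun x => κ x - (x.1 * x.1 + x.2 * x.2 - 1)) (D := δ)
    (fun x => (hk x).sub (by fun_prop)) (fun x hx => by
      have hsq : PD (fun v : P2 => v.1 * v.1 + v.2 * v.2 - 1) x _ _ :=
        ((PD.fst.mul PD.fst).add (PD.snd.mul PD.snd)).sub (PD.const 1)
      have hd := (PD.of (hk x)).sub hsq
      obtain ⟨-, h2, h3, -⟩ := hc x hx
      rw [hd.dp_eq, hd.dy_eq]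
      constructor
      · refine le_trans (le_of_eq (congrArg _ ?_)) h2; ring
      · refine le_trans (le_of_eq (congrArg _ ?_)) h3; ring) hr4 hs4
  simp only at lν lκ
  have hν2 : |ν z ^ 2 - ν (e0, ys) ^ 2| ≤ (δ + δ) * (2 * δ * (d + u)) := by
    rw [show ν z ^ 2 - ν (e0, ys) ^ 2 = (ν z + ν (e0, ys)) * (ν z - ν (e0, ys)) by ring]
    exact abs_mul' (abs_add' (hc z hr4).2.2.2.1 (hc _ hs4).2.2.2.1) lν
  have t2 : |η * (ν z ^ 2 - ν (e0, ys) ^ 2)| ≤ 1 * ((δ + δ) * (2 * δ * (d + u))) :=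
    abs_mul' ((abs_of_pos hη).le.trans (by linarith)) hν2
  have hp2 : |(z.1 - e0) * (z.1 + e0)| ≤ d * (1.7 + 1 / 100) := abs_mul' le_rfl (abs_add' hp17 he)
  have hy2 : 0.9 * u ≤ |(z.2 - ys) * (z.2 + ys)| := by
    rw [abs_mul, mul_comm]
    exact mul_le_mul_of_nonneg_left hsum hu0
  have ek : (z.2 - ys) * (z.2 + ys) = kt η κ ν z - (z.1 - e0) * (z.1 + e0)
      - ((κ z - (z.1 * z.1 + z.2 * z.2 - 1)) - (κ (e0, ys) - (e0 * e0 + ys * ys - 1)))
      + η * (ν z ^ 2 - ν (e0, ys) ^ 2) / 4 := by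
    simp only [kt] at ks ⊢
    linear_combination -ks
  have t3 : |(z.2 - ys) * (z.2 + ys)| ≤ |kt η κ ν z| + d * (1.7 + 1 / 100) + 2 * δ * (d + u)
      + 1 * ((δ + δ) * (2 * δ * (d + u))) / 4 := by
    rw [ek]
    exact abs_add' (abs_sub' (abs_sub' le_rfl hp2) lκ) (abs_div' t2 (by norm_num))
  have s1 : δ * (d + u) ≤ 1 / 10000 * (d + u) := mul_le_mul_of_nonneg_right hδ (by positivity)
  have s2 : δ * (δ * (d + u)) ≤ 1 * (δ * (d + u)) :=
    mul_le_mul_of_nonneg_right (by linarith) (by positivity)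
  have hηδ : η * δ ≤ 1 / 100000 := le_trans (mul_le_mul hη1 hδ hδ0 (by norm_num)) (by norm_num)
  have s3 : 3 * η * δ * u ≤ 3 / 100000 * u := mul_le_mul_of_nonneg_right (by linarith) hu0
  have hu2 : u ≤ 2 * |kt η κ ν z| + 4 * Z := by
    norm_num [-abs_mul] at hy2 t3
    linarith [abs_nonneg (kt η κ ν z)]
  have hX : |edgeD ym yp A A' z.2 - η * ν z / 2| ≤ 4 * η * δ * u + η * (2 * δ * (d + u)) / 2 := by
    have e : edgeD ym yp A A' z.2 - η * ν z / 2
        = (edgeD ym yp A A' z.2 - η * ν (e0, ys) / 2) - η * (ν z - ν (e0, ys)) / 2 := by ring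
    rw [e]
    exact abs_sub' hsl (abs_div' (abs_mul' (abs_of_pos hη).le lν) two_pos)
  have := mul_le_mul_of_nonneg_left (show 4 * δ * u + δ * (d + u) ≤ 10 * (|kt η κ ν z| + Z) by
    have := mul_le_mul_of_nonneg_right hδ hu0
    linarith [abs_nonneg (kt η κ ν z)]) hη.le
  linarith

end Vale.Agent.P229.Edge
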