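import Mathlib

/-
P229, EdgeSpec: the pointwise algebra of the multiplier identity.

The key fact is `disc`: on the edge `e' = ην/2 + X` the discriminant of the leading part of the
island form is exactly `η k^2 (4ε(1 + εk) - η g^2) - X^2 (f^2 + η g (f ν + g κ))` with
`k = κ - ην^2/4`, `g = y/8`, `f = 1 - η g ν/2`.
-/

namespace Vale.Agent.P229.Edge

/-- Values of the coefficients at a point. -/
structure Co where
  κ : ℝ
  κp : ℝ
  κy : ℝ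
  ν : ℝ
  νp : ℝ
  νy : ℝ
  G : ℝ
  G1 : ℝ

/-- Values and derivatives of the multipliers at a point. -/
structure Mu where
  b : ℝ
  bp : ℝ
  by' : ℝ
  γ : ℝ
  γp : ℝ
  γy : ℝ
  τ : ℝ
  τp : ℝ
  τy : ℝ

/-- The quadratic density at a point. -/
noncomputable def form (η : ℝ) (C : Co) (M : Mu) (a m w R : ℝ) : ℝ :=
  (M.bp / 2 + M.τ - M.γy / 2 - η * (M.γp * C.ν + M.γ * C.νp) / 2 + η * M.γ * C.G1) * m ^ 2
    + (-M.by' - η * (M.γp * C.κ + M.γ * C.κp) + η * M.τ * C.ν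
        + η * (M.b * C.G1 + M.γ * C.G)) * (a * m)
    + η * (-(M.bp * C.κ + M.b * C.κp) / 2 - (M.by' * C.ν + M.b * C.νy) / 2
        + (M.γy * C.κ + M.γ * C.κy) / 2 + M.τ * C.κ + M.b * C.G) * a ^ 2
    + (M.τy * w * m
        + η * (M.τp * C.κ + M.τ * C.κp + (M.τy * C.ν + M.τ * C.νy)) * w * a
        - η * M.τ * w * (C.G * a + C.G1 * m)
        + η * (M.b * a + M.γ * m - M.τ * w) * R)

lemma abs_add' {a b A B : ℝ} (ha : |a| ≤ A) (hb : |b| ≤ B) : |a + b| ≤ A + B :=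
  (abs_add_le a b).trans (add_le_add ha hb)

lemma abs_sub' {a b A B : ℝ} (ha : |a| ≤ A) (hb : |b| ≤ B) : |a - b| ≤ A + B :=
  (abs_sub a b).trans (add_le_add ha hb)

lemma abs_mul' {a b A B : ℝ} (ha : |a| ≤ A) (hb : |b| ≤ B) : |a * b| ≤ A * B := by
  rw [abs_mul]
  exact mul_le_mul ha hb (abs_nonneg b) ((abs_nonneg a).trans ha)

lemma abs_div' {a A n : ℝ} (ha : |a| ≤ A) (hn : 0 < n) : |a / n| ≤ A / n := by
  rw [abs_div, abs_of_pos hn]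
  exact div_le_div_of_nonneg_right ha hn.le

lemma quad_nonneg {M A B a m : ℝ} (hM : 0 < M) (h : A ^ 2 ≤ 4 * M * B) :
    0 ≤ M * m ^ 2 + A * (a * m) + B * a ^ 2 := by
  have h1 : 0 ≤ 4 * M * (M * m ^ 2 + A * (a * m) + B * a ^ 2) := by
    nlinarith [sq_nonneg (2 * M * m + A * a), mul_le_mul_of_nonneg_right h (sq_nonneg a)]
  exact nonneg_of_mul_nonneg_right h1 (by linarith)

lemma disc (η ν k g X : ℝ) :
    let f := 1 - η * g * ν / 2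
    let ε : ℝ := 1 / 1024
    4 * (1 + ε * k - g * X / 2)
        * (η * (η * ν ^ 2 / 4 + k * η * ν * (ε * ν + 2 * g) / 4 + ε * k ^ 2
            + X * (f * ν + g * (k + η * ν ^ 2 / 4)) / 2))
      - (η * ν + f * X + η * k * (ε * ν + g)) ^ 2
      = η * k ^ 2 * (4 * ε * (1 + ε * k) - η * g ^ 2)
        - X ^ 2 * (f ^ 2 + η * g * (f * ν + g * (k + η * ν ^ 2 / 4))) := by
  ring

/-- The multipliers of the island at depth `z` left of the edge with slope `e1`. -/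
noncomputable def islandMu (η : ℝ) (C : Co) (y z e1 : ℝ) : Mu where
  b := -((1 - η * (y / 8) * C.ν / 2) * z ^ 4)
  bp := -((-(η * (y / 8) * C.νp / 2)) * z ^ 4 + (1 - η * (y / 8) * C.ν / 2) * (-(4 * z ^ 3)))
  by' := -((-(η * (1 / 8 * C.ν + y / 8 * C.νy) / 2)) * z ^ 4
    + (1 - η * (y / 8) * C.ν / 2) * (4 * z ^ 3 * e1))
  γ := y / 8 * z ^ 4
  γp := y / 8 * (-(4 * z ^ 3))
  γy := 1 / 8 * z ^ 4 + y / 8 * (4 * z ^ 3 * e1)
  τ := 4 * z ^ 3 * (1 / 2 + 1 / 1024 * (C.κ - η * C.ν ^ 2 / 4)) - 1 / 8 * z ^ 4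
  τp := -(12 * z ^ 2) * (1 / 2 + 1 / 1024 * (C.κ - η * C.ν ^ 2 / 4))
    + 4 * z ^ 3 * (1 / 1024 * (C.κp - η * C.ν * C.νp / 2)) - 1 / 8 * (-(4 * z ^ 3))
  τy := 12 * z ^ 2 * e1 * (1 / 2 + 1 / 1024 * (C.κ - η * C.ν ^ 2 / 4))
    + 4 * z ^ 3 * (1 / 1024 * (C.κy - η * C.ν * C.νy / 2)) - 1 / 8 * (4 * z ^ 3 * e1)

/-- The bounds used on the island. -/
structure IslandHyp (B η δ g0 p y : ℝ) (C : Co) : Prop where
  B_ge : 1 ≤ B
  η_pos : 0 < η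
  η_small : η * B ^ 2 ≤ 1 / 1000000
  δ_small : δ ≤ 1 / 1000
  g0_ge : 2 ≤ g0
  p_le : g0 * p ≤ 1 / 200
  pp : |p| ≤ 1.7
  yy : |y| ≤ 1.7
  rr : p ^ 2 + y ^ 2 ≤ 2.8
  hκ : |C.κ - (p ^ 2 + y ^ 2 - 1)| ≤ δ
  hκp : |C.κp - 2 * p| ≤ δ
  hκy : |C.κy - 2 * y| ≤ δ
  hν : |C.ν| ≤ δ
  hνp : |C.νp| ≤ δ
  hνy : |C.νy| ≤ δ
  hG : |C.G - 2 * g0 * p| ≤ δ
  hGB : |C.G| ≤ B
  hG1 : |C.G1| ≤ B

variable {B η δ g0 p y z e1 : ℝ} {C : Co}

lemma IslandHyp.η_le (h : IslandHyp B η δ g0 p y C) : η ≤ 1 / 1000000 ∧ η * B ≤ 1 / 1000000 := by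
  have h1 := h.B_ge
  have h2 := h.η_small
  have h3 := h.η_pos
  constructor <;> nlinarith [mul_le_mul_of_nonneg_left h1 (mul_nonneg h3.le (zero_le_one.trans h1))]

lemma IslandHyp.δ_nonneg (h : IslandHyp B η δ g0 p y C) : 0 ≤ δ := (abs_nonneg _).trans h.hν

lemma psi_main (hg0 : 2 ≤ g0) (hpl : g0 * p ≤ 1 / 200) (hp : |p| ≤ 1.7) :
    1 / 32 ≤ (1 - 2 * g0) * p + 1 / 8 * ((1 + y ^ 2 - p ^ 2) / 2) := by
  rw [abs_le] at hp
  norm_num at hp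
  have hy := sq_nonneg y
  rcases le_or_gt p 0 with hp0 | hp0
  · have h1 : 0 ≤ (-p) * (g0 - 2) := mul_nonneg (by linarith) (by linarith)
    have h2 : (-p) * (-p) ≤ (-p) * (17 / 10) := mul_le_mul_of_nonneg_left (by linarith) (by linarith)
    linarith
  · have h1 : p * 2 ≤ p * g0 := mul_le_mul_of_nonneg_left hg0 hp0.le
    have h2 : p * p ≤ p * 1 := mul_le_mul_of_nonneg_left (by linarith) hp0.le
    linarith

lemma IslandHyp.hg (h : IslandHyp B η δ g0 p y C) : |y / 8| ≤ 1 / 4 :=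
  (abs_div' h.yy (by norm_num)).trans (by norm_num)

lemma IslandHyp.hν1 (h : IslandHyp B η δ g0 p y C) : |C.ν| ≤ 1 / 1000 := h.hν.trans h.δ_small

lemma IslandHyp.hκ2 (h : IslandHyp B η δ g0 p y C) : |C.κ| ≤ 2 := by
  have hκ := h.hκ
  have := h.rr
  have := h.δ_small
  have := sq_nonneg p
  have := sq_nonneg y
  rw [abs_le] at hκ ⊢
  constructor <;> linarith

lemma IslandHyp.hκp4 (h : IslandHyp B η δ g0 p y C) : |C.κp| ≤ 4 := by
  have hκp := h.hκp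
  have hp := h.pp
  have := h.δ_small
  rw [abs_le] at hκp hp ⊢
  norm_num at hp
  constructor <;> linarith

lemma IslandHyp.hf (h : IslandHyp B η δ g0 p y C) :
    |1 - η * (y / 8) * C.ν / 2| ≤ 101 / 100 := by
  have := abs_mul' (abs_mul' (abs_of_pos h.η_pos).le h.hg) h.hν1
  have := h.η_le.1
  rw [abs_le] at *
  constructor <;> linarith

/-- The two small coefficients of order `z ^ 4`. -/
lemma island_psi (h : IslandHyp B η δ g0 p y C) :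
    |-(-(η * (y / 8) * C.νp / 2)) / 2 - 3 / 16 - η * (y / 8) * C.νp / 2 + η * (y / 8) * C.G1|
        ≤ 1 / 4 ∧
    |-(η * (1 / 8 * C.ν + y / 8 * C.νy) / 2) - η * (y / 8) * C.κp - η * (1 / 8) * C.ν
        - η * (1 - η * (y / 8) * C.ν / 2) * C.G1 + η * (y / 8) * C.G| ≤ η * (4 * B) := by
  have hη := h.η_pos
  obtain ⟨hη1, hηB⟩ := h.η_le
  have hηabs : |η| ≤ η := (abs_of_pos hη).le
  have a1 := abs_mul' (abs_mul' hηabs h.hg) (h.hνp.trans h.δ_small)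
  have a3 := abs_mul' (abs_mul' hηabs h.hg) h.hG1
  have a4 := abs_mul' (abs_mul' hηabs h.hg) h.hGB
  have a5 := abs_mul' hηabs (abs_add' (abs_mul' (le_of_eq (abs_of_nonneg
    (show (0 : ℝ) ≤ 1 / 8 by norm_num))) h.hν1) (abs_mul' h.hg (h.hνy.trans h.δ_small)))
  have a6 := abs_mul' (abs_mul' hηabs h.hg) h.hκp4
  have a7 := abs_mul' (abs_mul' hηabs (le_of_eq (abs_of_nonneg
    (show (0 : ℝ) ≤ 1 / 8 by norm_num)))) h.hν1
  have a8 := abs_mul' (abs_mul' hηabs h.hf) h.hG1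
  have : η ≤ η * B := le_mul_of_one_le_right hη.le h.B_ge
  rw [abs_le] at a1 a3 a4 a5 a6 a7 a8 ⊢
  rw [abs_le]
  refine ⟨⟨?_, ?_⟩, ?_, ?_⟩ <;> linarith

/-- The coercive coefficient of order `z ^ 4`. -/
lemma island_psi_pos (h : IslandHyp B η δ g0 p y C) :
    1 / 40 ≤ ((-(η * (y / 8) * C.νp / 2)) * C.κ + (1 - η * (y / 8) * C.ν / 2) * C.κp) / 2
      + ((-(η * (1 / 8 * C.ν + y / 8 * C.νy) / 2)) * C.ν + (1 - η * (y / 8) * C.ν / 2) * C.νy) / 2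
      + (1 / 8 * C.κ + y / 8 * C.κy) / 2 - 1 / 8 * C.κ
      - (1 - η * (y / 8) * C.ν / 2) * C.G := by
  have hη := h.η_pos
  obtain ⟨hη1, hηB⟩ := h.η_le
  have hηabs : |η| ≤ η := (abs_of_pos hη).le
  have hνy1 := h.hνy.trans h.δ_small
  have a1 := abs_mul' (abs_mul' hηabs h.hg) (h.hνp.trans h.δ_small)
  have a2 := abs_mul' (abs_mul' hηabs h.hg) h.hν1
  have a5 := abs_mul' hηabs (abs_add' (abs_mul' (le_of_eq (abs_of_nonneg
    (show (0 : ℝ) ≤ 1 / 8 by norm_num))) h.hν1) (abs_mul' h.hg hνy1))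
  have b1 := abs_mul' a1 h.hκ2
  have b2 := abs_mul' a2 h.hκp4
  have b3 := abs_mul' a5 h.hν1
  have b4 := abs_mul' a2 hνy1
  have b5 := abs_mul' a2 h.hGB
  have b6 := abs_mul' h.hg h.hκy
  have main := psi_main (y := y) h.g0_ge h.p_le h.pp
  have hκ := h.hκ
  have hκp := h.hκp
  have hG := h.hG
  have := h.δ_small
  rw [abs_le] at hκ hκp hνy1 hG b1 b2 b3 b4 b5 b6
  linarith

/-- The leading coefficients and their discriminant. -/
lemma lead_coefs {ν k g X : ℝ} (hη : 0 < η) (hη1 : η ≤ 1 / 1000000) (hz : 0 ≤ z)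
    (hz2 : z ≤ 2) (hg : |g| ≤ 1 / 4) (hν : |ν| ≤ 1 / 1000) (hk : |k| ≤ 2)
    (hX : |X| ≤ 10 * η * (|k| + z)) :
    0.9 ≤ 1 + 1 / 1024 * k - g * X / 2 ∧
    |η * ν + (1 - η * g * ν / 2) * X + η * k * (1 / 1024 * ν + g)| ≤ 50 * η ∧
    |η * ν ^ 2 / 4 + k * η * ν * (1 / 1024 * ν + 2 * g) / 4 + 1 / 1024 * k ^ 2
      + X * ((1 - η * g * ν / 2) * ν + g * (k + η * ν ^ 2 / 4)) / 2| ≤ 1 / 200 ∧
    X ^ 2 ≤ 200 * η ^ 2 * (k ^ 2 + 2 * z) ∧ |1 - η * g * ν / 2| ≤ 101 / 100 ∧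
    |(1 - η * g * ν / 2) * ν + g * (k + η * ν ^ 2 / 4)| ≤ 1 := by
  have hηabs : |η| ≤ η := (abs_of_pos hη).le
  have hX40 : |X| ≤ 40 * η :=
    hX.trans ((mul_le_mul_of_nonneg_left (add_le_add hk hz2) (by positivity)).trans_eq (by ring))
  have hf : |1 - η * g * ν / 2| ≤ 101 / 100 := by
    have t := abs_mul' (abs_mul' hηabs hg) hν
    rw [abs_le] at t ⊢
    constructor <;> linarith
  have he : |1 / 1024 * ν + g| ≤ 1 / 2 ∧ |1 / 1024 * ν + 2 * g| ≤ 1 := by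
    rw [abs_le] at hν hg
    rw [abs_le, abs_le]
    refine ⟨⟨?_, ?_⟩, ?_, ?_⟩ <;> linarith
  have hν2 : |η * ν ^ 2 / 4| ≤ η * (1 / 1000) ^ 2 / 4 :=
    abs_div' (abs_mul' hηabs ((abs_pow ν 2).le.trans (pow_le_pow_left₀ (abs_nonneg _) hν 2)))
      (by norm_num)
  have hh : |(1 - η * g * ν / 2) * ν + g * (k + η * ν ^ 2 / 4)| ≤ 1 :=
    (abs_add' (abs_mul' hf hν) (abs_mul' hg (abs_add' hk hν2))).trans (by linarith)
  refine ⟨?_, ?_, ?_, ?_, hf, hh⟩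
  · have t := abs_mul' hg hX40
    rw [abs_le] at hk t
    norm_num
    linarith
  · exact (abs_add' (abs_add' (abs_mul' hηabs hν) (abs_mul' hf hX40))
      (abs_mul' (abs_mul' hηabs hk) he.1)).trans (by linarith)
  · have t2 := abs_div' (abs_mul' (abs_mul' (abs_mul' hk hηabs) hν) he.2)
      (show (0 : ℝ) < 4 by norm_num)
    have t3 := abs_div' (abs_mul' hX40 hh) (show (0 : ℝ) < 2 by norm_num)
    have t4 : |1 / 1024 * k ^ 2| ≤ 1 / 1024 * 2 ^ 2 :=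
      abs_mul' (le_of_eq (abs_of_nonneg (by norm_num)))
        ((abs_pow k 2).le.trans (pow_le_pow_left₀ (abs_nonneg _) hk 2))
    exact (abs_add' (abs_add' (abs_add' hν2 t2) t4) t3).trans (by linarith)
  · have h1 : X ^ 2 ≤ (10 * η * (|k| + z)) ^ 2 := by
      rw [← sq_abs X]; exact pow_le_pow_left₀ (abs_nonneg _) hX 2
    have h2 : (|k| + z) ^ 2 ≤ 2 * (k ^ 2 + 2 * z) := by
      have := mul_le_mul_of_nonneg_left hz2 hz
      have := sq_nonneg (|k| - z)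
      have := sq_abs k
      linarith
    have := mul_le_mul_of_nonneg_left h2 (show 0 ≤ 100 * η ^ 2 by positivity)
    linarith

/-- The leading discriminant is almost nonnegative. -/
lemma lead_disc {ν k g X : ℝ} (hη : 0 < η) (hη1 : η ≤ 1 / 1000000) (hz : 0 ≤ z)
    (hz2 : z ≤ 2) (hg : |g| ≤ 1 / 4) (hν : |ν| ≤ 1 / 1000) (hk : |k| ≤ 2)
    (hX : |X| ≤ 10 * η * (|k| + z)) :
    -(1000 * η ^ 2 * z) ≤ 4 * (1 + 1 / 1024 * k - g * X / 2)
        * (η * (η * ν ^ 2 / 4 + k * η * ν * (1 / 1024 * ν + 2 * g) / 4 + 1 / 1024 * k ^ 2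
            + X * ((1 - η * g * ν / 2) * ν + g * (k + η * ν ^ 2 / 4)) / 2))
      - (η * ν + (1 - η * g * ν / 2) * X + η * k * (1 / 1024 * ν + g)) ^ 2 := by
  obtain ⟨-, -, -, hX2, hf, hh⟩ := lead_coefs hη hη1 hz hz2 hg hν hk hX
  have hd := disc η ν k g X
  simp only at hd
  rw [hd]
  have c1 : (3 / 1024 : ℝ) ≤ 4 * (1 / 1024) * (1 + 1 / 1024 * k) - η * g ^ 2 := by
    have t : |η * g ^ 2| ≤ η * (1 / 4) ^ 2 :=
      abs_mul' (abs_of_pos hη).le ((abs_pow g 2).le.trans (pow_le_pow_left₀ (abs_nonneg _) hg 2))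
    rw [abs_le] at hk t
    linarith
  have c2 : (1 - η * g * ν / 2) ^ 2
      + η * g * ((1 - η * g * ν / 2) * ν + g * (k + η * ν ^ 2 / 4)) ≤ 5 / 4 := by
    have t := abs_mul' (abs_mul' (abs_of_pos hη).le hg) hh
    have t' : (1 - η * g * ν / 2) ^ 2 ≤ (101 / 100) ^ 2 := by
      rw [← sq_abs]; exact pow_le_pow_left₀ (abs_nonneg _) hf 2
    rw [abs_le] at t
    linarith
  have d1 := mul_le_mul_of_nonneg_left c1 (show 0 ≤ η * k ^ 2 by positivity)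
  have d2 := mul_le_mul_of_nonneg_left c2 (sq_nonneg X)
  have d3 := mul_le_mul_of_nonneg_right (show 250 * η ≤ 3 / 1024 by linarith)
    (show 0 ≤ η * k ^ 2 by positivity)
  have : 0 ≤ η ^ 2 * z := by positivity
  linarith

/-- Coercivity from the bounds on the coefficients. -/
lemma assemble {MD AD BD Mψ Aψ Bψ : ℝ} (hη : 0 < η) (hη1 : η ≤ 1 / 1000000) (hB : 1 ≤ B)
    (hηB2 : η * B ^ 2 ≤ 1 / 1000000) (hηB : η * B ≤ 1 / 1000000) (hz : 0 ≤ z) (hz2 : z ≤ 2)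
    (h1 : 0.9 ≤ MD) (h2 : |AD| ≤ 50 * η) (h3 : |BD| ≤ 1 / 200)
    (hd : -(1000 * η ^ 2 * z) ≤ 4 * MD * (η * BD) - AD ^ 2)
    (p1 : |Mψ| ≤ 1 / 4) (p2 : |Aψ| ≤ η * (4 * B)) (p3 : 1 / 40 ≤ Bψ) (a m : ℝ) :
    0 ≤ (MD + z * (Mψ - 4 / 64) / 4) * m ^ 2 + (AD + z * Aψ / 4) * (a * m)
      + η * (BD + z * (Bψ - 4 / 640) / 4) * a ^ 2 := by
  have hM : |Mψ - 4 / 64| ≤ 5 / 16 :=
    (abs_sub' p1 (le_of_eq (abs_of_nonneg (by norm_num)))).trans (by norm_num)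
  have hMh : 0.7 ≤ MD + z * (Mψ - 4 / 64) / 4 := by
    have t := abs_mul' ((abs_of_nonneg hz).le.trans hz2) hM
    rw [abs_le] at t
    norm_num at h1 ⊢
    linarith
  have hMh0 : 0 < MD + z * (Mψ - 4 / 64) / 4 := lt_of_lt_of_le (by norm_num) hMh
  refine quad_nonneg hMh0 ?_
  have key : 4 * (MD + z * (Mψ - 4 / 64) / 4) * (η * (BD + z * (Bψ - 4 / 640) / 4))
        - (AD + z * Aψ / 4) ^ 2
      = (4 * MD * (η * BD) - AD ^ 2) + z * ((Mψ - 4 / 64) * (η * BD)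
          + (MD + z * (Mψ - 4 / 64) / 4) * (η * (Bψ - 4 / 640)) - AD * Aψ / 2
          - z * Aψ ^ 2 / 16) := by ring
  have e1' := abs_mul' hM (abs_mul' (abs_of_pos hη).le h3)
  have e2' : 0.7 * (η * (1 / 40 - 4 / 640))
      ≤ (MD + z * (Mψ - 4 / 64) / 4) * (η * (Bψ - 4 / 640)) :=
    mul_le_mul hMh (mul_le_mul_of_nonneg_left (sub_le_sub_right p3 _) hη.le)
      (mul_nonneg hη.le (by norm_num)) hMh0.le
  have e3' := abs_mul' h2 p2
  have e4' : z * Aψ ^ 2 ≤ 2 * (η * (4 * B)) ^ 2 := by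
    rw [← sq_abs Aψ]
    exact mul_le_mul hz2 (pow_le_pow_left₀ (abs_nonneg _) p2 2) (sq_nonneg _) (by norm_num)
  have hηη : η * (η * B ^ 2) ≤ η * (1 / 1000000) := mul_le_mul_of_nonneg_left hηB2 hη.le
  have hηη' : η * (η * B) ≤ η * (1 / 1000000) := mul_le_mul_of_nonneg_left hηB hη.le
  have hηη'' : η * η ≤ η * (1 / 1000000) := mul_le_mul_of_nonneg_left hη1 hη.le
  have hin : 1000 * η ^ 2 ≤ (Mψ - 4 / 64) * (η * BD)
      + (MD + z * (Mψ - 4 / 64) / 4) * (η * (Bψ - 4 / 640)) - AD * Aψ / 2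
      - z * Aψ ^ 2 / 16 := by
    rw [abs_le] at e1' e3'
    norm_num at e2'
    linarith
  have := mul_le_mul_of_nonneg_left hin hz
  linarith

lemma island_expand (a m : ℝ) :
    let g := y / 8
    let k := C.κ - η * C.ν ^ 2 / 4
    let X := e1 - η * C.ν / 2
    let f := 1 - η * g * C.ν / 2
    let MD := 1 + 1 / 1024 * k - g * X / 2
    let AD := η * C.ν + f * X + η * k * (1 / 1024 * C.ν + g)
    let BD := η * C.ν ^ 2 / 4 + k * η * C.ν * (1 / 1024 * C.ν + 2 * g) / 4 + 1 / 1024 * k ^ 2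
      + X * (f * C.ν + g * (k + η * C.ν ^ 2 / 4)) / 2
    let Mψ := -(-(η * (y / 8) * C.νp / 2)) / 2 - 3 / 16 - η * (y / 8) * C.νp / 2
      + η * (y / 8) * C.G1
    let Aψ := -(η * (1 / 8 * C.ν + y / 8 * C.νy) / 2) - η * (y / 8) * C.κp - η * (1 / 8) * C.ν
      - η * (1 - η * (y / 8) * C.ν / 2) * C.G1 + η * (y / 8) * C.G
    let Bψ := ((-(η * (y / 8) * C.νp / 2)) * C.κ + (1 - η * (y / 8) * C.ν / 2) * C.κp) / 2
      + ((-(η * (1 / 8 * C.ν + y / 8 * C.νy) / 2)) * C.ν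
          + (1 - η * (y / 8) * C.ν / 2) * C.νy) / 2
      + (1 / 8 * C.κ + y / 8 * C.κy) / 2 - 1 / 8 * C.κ
      - (1 - η * (y / 8) * C.ν / 2) * C.G
    form η C (islandMu η C y z e1) a m 0 0
      = 4 * z ^ 3 * ((MD + z * (Mψ - 4 / 64) / 4) * m ^ 2 + (AD + z * Aψ / 4) * (a * m)
          + η * (BD + z * (Bψ - 4 / 640) / 4) * a ^ 2)
        + 4 * z ^ 4 * (1 / 64 * m ^ 2 + 1 / 640 * η * a ^ 2) := by
  simp only [form, islandMu]
  ring

/-- The quadratic part of the island form is coercive. -/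
lemma island_quad (h : IslandHyp B η δ g0 p y C) (hz : 0 ≤ z) (hz2 : z ≤ 2)
    (hX : |e1 - η * C.ν / 2| ≤ 10 * η * (|C.κ - η * C.ν ^ 2 / 4| + z)) (a m : ℝ) :
    4 * z ^ 4 * (1 / 64 * m ^ 2 + 1 / 640 * η * a ^ 2)
      ≤ form η C (islandMu η C y z e1) a m 0 0 := by
  have hη := h.η_pos
  obtain ⟨hη1, hηB⟩ := h.η_le
  have hk : |C.κ - η * C.ν ^ 2 / 4| ≤ 2 := by
    have t : |η * C.ν ^ 2| ≤ η * (1 / 1000) ^ 2 :=
      abs_mul' (abs_of_pos hη).le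
        ((abs_pow C.ν 2).le.trans (pow_le_pow_left₀ (abs_nonneg _) h.hν1 2))
    have hκ := h.hκ
    have := h.rr
    have := h.δ_small
    have := sq_nonneg p
    have := sq_nonneg y
    rw [abs_le] at hκ t ⊢
    constructor <;> linarith
  obtain ⟨l1, l2, l3, -⟩ := lead_coefs hη hη1 hz hz2 h.hg h.hν1 hk hX
  have hd := lead_disc hη hη1 hz hz2 h.hg h.hν1 hk hX
  obtain ⟨p1, p2⟩ := island_psi h
  have p3 := island_psi_pos h
  have e := island_expand (η := η) (C := C) (y := y) (z := z) (e1 := e1) a m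
  simp only at e
  rw [e]
  exact le_add_of_nonneg_left (mul_nonneg (by positivity)
    (assemble hη hη1 h.B_ge h.η_small hηB hz hz2 l1 l2 l3 hd p1 p2 p3 a m))

lemma young {x z K μ : ℝ} (hμ : 0 < μ) (hx : |x| ≤ K * z ^ 2) (u v : ℝ) :
    -(μ * z ^ 4 * u ^ 2 + K ^ 2 / (4 * μ) * v ^ 2) ≤ x * v * u := by
  have h1 : |x * v * u| ≤ K * z ^ 2 * |v| * |u| :=
    abs_mul' (abs_mul' hx le_rfl) le_rfl
  have h2 : K * z ^ 2 * |v| * |u| ≤ μ * z ^ 4 * u ^ 2 + K ^ 2 / (4 * μ) * v ^ 2 := by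
    have h3 : 0 ≤ (2 * μ * z ^ 2 * |u| - K * |v|) ^ 2 / (4 * μ) := by positivity
    have h4 : (2 * μ * z ^ 2 * |u| - K * |v|) ^ 2 / (4 * μ)
        = μ * z ^ 4 * |u| ^ 2 + K ^ 2 / (4 * μ) * |v| ^ 2 - K * z ^ 2 * |v| * |u| := by
      field_simp; ring
    rw [sq_abs, sq_abs] at h4; linarith
  have := (abs_le.1 (h1.trans h2)).1
  linarith

/-- The lower order part of a form with multipliers of size `K z ^ 2`. -/
lemma lower_bound {K μ ν' : ℝ} (hK : 1 ≤ K) (hη : 0 < η) (hη1 : η ≤ 1) (hμ : 0 < μ) (hν : 0 < ν')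
    {M : Mu} (hz2 : z ^ 2 ≤ 4) (hzero : 0 ≤ z ^ 2)
    (h1 : |M.τy - η * M.τ * C.G1| ≤ K * z ^ 2)
    (h2 : |M.τp * C.κ + M.τ * C.κp + (M.τy * C.ν + M.τ * C.νy) - M.τ * C.G| ≤ K * z ^ 2)
    (h3 : |M.b| ≤ K * z ^ 2) (h4 : |M.γ| ≤ K * z ^ 2) (h5 : |M.τ| ≤ K * z ^ 2) (a m w R : ℝ) :
    -(2 * μ * z ^ 4 * m ^ 2 + 2 * ν' * η * z ^ 4 * a ^ 2
        + (4 * K + K ^ 2 / (2 * μ) + K ^ 2 / (2 * ν')) * (w ^ 2 + R ^ 2))
      ≤ form η C M a m w R - form η C M a m 0 0 := by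
  have e : form η C M a m w R - form η C M a m 0 0
      = (M.τy - η * M.τ * C.G1) * w * m
        + η * ((M.τp * C.κ + M.τ * C.κp + (M.τy * C.ν + M.τ * C.νy) - M.τ * C.G) * w * a)
        + η * (M.b * R * a) + η * (M.γ * R * m) - η * (M.τ * w * R) := by
    unfold form; ring
  rw [e]
  have y1 := young hμ h1 m w
  have y2 := mul_le_mul_of_nonneg_left (young hν h2 a w) hη.le
  have y3 := mul_le_mul_of_nonneg_left (young hν h3 a R) hη.le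
  have y4 := mul_le_mul_of_nonneg_left (young hμ h4 m R) hη.le
  have y5 : η * (M.τ * w * R) ≤ 2 * K * (w ^ 2 + R ^ 2) := by
    have hz4 : |M.τ| ≤ 4 * K := h5.trans (by nlinarith)
    have : |η * (M.τ * w * R)| ≤ 1 * (4 * K * |w| * |R|) :=
      abs_mul' ((abs_of_pos hη).le.trans hη1) (abs_mul' (abs_mul' hz4 le_rfl) le_rfl)
    have h6 : 2 * |w| * |R| ≤ w ^ 2 + R ^ 2 := by
      nlinarith [sq_nonneg (|w| - |R|), sq_abs w, sq_abs R]
    nlinarith [(abs_le.1 this).2, mul_le_mul_of_nonneg_left h6 (show 0 ≤ 2 * K by linarith)]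
  have p1 : η * (K ^ 2 / (4 * ν') * w ^ 2) ≤ 1 * (K ^ 2 / (4 * ν') * w ^ 2) :=
    mul_le_mul_of_nonneg_right hη1 (by positivity)
  have p2 : η * (K ^ 2 / (4 * ν') * R ^ 2) ≤ 1 * (K ^ 2 / (4 * ν') * R ^ 2) :=
    mul_le_mul_of_nonneg_right hη1 (by positivity)
  have p3 : η * (μ * z ^ 4 * m ^ 2 + K ^ 2 / (4 * μ) * R ^ 2)
      ≤ 1 * (μ * z ^ 4 * m ^ 2 + K ^ 2 / (4 * μ) * R ^ 2) :=
    mul_le_mul_of_nonneg_right hη1 (by positivity)
  have q0 : 0 ≤ K ^ 2 / (4 * μ) * w ^ 2 := by positivity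
  have q1 : 0 ≤ K ^ 2 / (4 * μ) * R ^ 2 := by positivity
  have q2 : 0 ≤ K ^ 2 / (4 * ν') * w ^ 2 := by positivity
  have q3 : 0 ≤ K ^ 2 / (4 * ν') * R ^ 2 := by positivity
  have d1 : K ^ 2 / (2 * μ) = 2 * (K ^ 2 / (4 * μ)) := by ring
  have d2 : K ^ 2 / (2 * ν') = 2 * (K ^ 2 / (4 * ν')) := by ring
  have q4 : 0 ≤ K * (w ^ 2 + R ^ 2) := by positivity
  rw [d1, d2]
  linarith

/-- Sizes of the island multipliers. -/
lemma island_sizes (h : IslandHyp B η δ g0 p y C) (hz : 0 ≤ z) (hz2 : z ≤ 2)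
    (he1 : |e1| ≤ 1) :
    |(islandMu η C y z e1).b| ≤ 10 * z ^ 2 ∧ |(islandMu η C y z e1).γ| ≤ 10 * z ^ 2 ∧
    |(islandMu η C y z e1).τ| ≤ 10 * z ^ 2 ∧ |(islandMu η C y z e1).τp| ≤ 20 * z ^ 2 ∧
    |(islandMu η C y z e1).τy| ≤ 20 * z ^ 2 := by
  obtain ⟨hB, hη, -, hδ, hg0, hpl, hp, hy, hrr, hκ, hκp, hκy, hν, hνp, hνy, -, hGB, hG1⟩ := id h
  obtain ⟨hη1, -⟩ := h.η_le
  have hg : |y / 8| ≤ 1 / 4 := (abs_div' hy (by norm_num)).trans (by norm_num)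
  have hν1 : |C.ν| ≤ 1 / 1000 := hν.trans hδ
  have hηabs : |η| ≤ η := (abs_of_pos hη).le
  have hf : |1 - η * (y / 8) * C.ν / 2| ≤ 2 := by
    have := abs_mul' (abs_mul' hηabs hg) hν1
    rw [abs_le] at this ⊢; constructor <;> linarith
  have hs : |1 / 2 + 1 / 1024 * (C.κ - η * C.ν ^ 2 / 4)| ≤ 3 / 5 := by
    have h0 : 0 ≤ η * C.ν ^ 2 := by positivity
    have h1 : η * C.ν ^ 2 ≤ 1 := by
      rw [abs_le] at hν1
      nlinarith
    rw [abs_le] at hκ ⊢; constructor <;> nlinarith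
  have hkd : ∀ u u0 v : ℝ, |u - 2 * u0| ≤ δ → |u0| ≤ 1.7 → |v| ≤ δ →
      |1 / 1024 * (u - η * C.ν * v / 2)| ≤ 1 / 100 := by
    intro u u0 v hu hu0 hv
    have t := abs_mul' (abs_mul' hηabs hν1) (hv.trans hδ)
    rw [abs_le] at hu hu0 t ⊢; norm_num at hu0; constructor <;> linarith
  have z4 : |z ^ 4| ≤ 4 * z ^ 2 := by
    rw [abs_of_nonneg (by positivity)]; nlinarith [mul_le_mul hz2 hz2 hz (by norm_num : (0:ℝ) ≤ 2)]
  have z3 : |4 * z ^ 3| ≤ 8 * z ^ 2 := by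
    rw [abs_of_nonneg (by positivity)]; nlinarith
  have z12 : |12 * z ^ 2| ≤ 12 * z ^ 2 := by rw [abs_of_nonneg (by positivity)]
  have c8 : |(1 / 8 : ℝ)| ≤ 1 / 8 := le_of_eq (abs_of_nonneg (by norm_num))
  have z0 : 0 ≤ z ^ 2 := sq_nonneg z
  simp only [islandMu]
  refine ⟨?_, (abs_mul' hg z4).trans (by linarith),
    (abs_sub' (abs_mul' z3 hs) (abs_mul' c8 z4)).trans (by linarith), ?_, ?_⟩
  · rw [abs_neg]; exact (abs_mul' hf z4).trans (by linarith)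
  · have t1 : |-(12 * z ^ 2)| ≤ 12 * z ^ 2 := by rw [abs_neg]; exact z12
    have t2 : |-(4 * z ^ 3)| ≤ 8 * z ^ 2 := by rw [abs_neg]; exact z3
    exact (abs_sub' (abs_add' (abs_mul' t1 hs) (abs_mul' z3 (hkd _ _ _ hκp hp hνp)))
      (abs_mul' c8 t2)).trans (by linarith)
  · exact (abs_sub' (abs_add' (abs_mul' (abs_mul' z12 he1) hs) (abs_mul' z3 (hkd _ _ _ hκy hy hνy)))
      (abs_mul' c8 (abs_mul' z3 he1))).trans (by linarith)

lemma island_e1 (h : IslandHyp B η δ g0 p y C) (hz2 : z ≤ 2)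
    (hX : |e1 - η * C.ν / 2| ≤ 10 * η * (|C.κ - η * C.ν ^ 2 / 4| + z)) : |e1| ≤ 1 := by
  have hη := h.η_pos
  have hη1 := h.η_le.1
  have t2 : |η * C.ν ^ 2 / 4| ≤ η * (1 / 1000) ^ 2 / 4 :=
    abs_div' (abs_mul' (abs_of_pos hη).le
      ((abs_pow C.ν 2).le.trans (pow_le_pow_left₀ (abs_nonneg _) h.hν1 2))) (by norm_num)
  have hk := abs_sub' h.hκ2 t2
  have h1 := hX.trans (mul_le_mul_of_nonneg_left (add_le_add hk hz2) (by positivity))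
  have h2 := abs_mul' (abs_of_pos hη).le h.hν1
  have h3 : η * η ≤ η * (1 / 1000000) := mul_le_mul_of_nonneg_left hη1 hη.le
  rw [abs_le] at h1 h2 ⊢
  constructor <;> linarith

lemma island_lower_hyps (h : IslandHyp B η δ g0 p y C) (hz : 0 ≤ z) (hz2 : z ≤ 2)
    (he1 : |e1| ≤ 1) :
    |(islandMu η C y z e1).τy - η * (islandMu η C y z e1).τ * C.G1| ≤ 200 * B * z ^ 2 ∧
    |(islandMu η C y z e1).τp * C.κ + (islandMu η C y z e1).τ * C.κp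
        + ((islandMu η C y z e1).τy * C.ν + (islandMu η C y z e1).τ * C.νy)
        - (islandMu η C y z e1).τ * C.G| ≤ 200 * B * z ^ 2 := by
  obtain ⟨-, -, st, stp, sty⟩ := island_sizes h hz hz2 he1
  generalize islandMu η C y z e1 = M at *
  have hη := h.η_pos
  obtain ⟨hη1, hηB⟩ := h.η_le
  have z0 : 0 ≤ z ^ 2 := sq_nonneg z
  have zB : z ^ 2 ≤ B * z ^ 2 := le_mul_of_one_le_left z0 h.B_ge
  constructor
  · refine (abs_sub' sty (abs_mul' (abs_mul' (abs_of_pos hη).le st) h.hG1)).trans ?_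
    have t := mul_le_mul_of_nonneg_right (show η * (10 * B) ≤ 1 by linarith) z0
    linarith
  · refine (abs_sub' (abs_add' (abs_add' (abs_mul' stp h.hκ2) (abs_mul' st h.hκp4))
      (abs_add' (abs_mul' sty h.hν1) (abs_mul' st (h.hνy.trans h.δ_small))))
      (abs_mul' st h.hGB)).trans ?_
    linarith

/-- The island form is bounded below. -/
lemma island_bound (h : IslandHyp B η δ g0 p y C) (hz : 0 ≤ z) (hz2 : z ≤ 2)
    (hX : |e1 - η * C.ν / 2| ≤ 10 * η * (|C.κ - η * C.ν ^ 2 / 4| + z)) (a m w R : ℝ) :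
    η / 640 * (z ^ 4 * (a ^ 2 + m ^ 2)) - 20000000 * B ^ 2 * (w ^ 2 + R ^ 2)
      ≤ form η C (islandMu η C y z e1) a m w R := by
  have hη := h.η_pos
  have hη1 := h.η_le.1
  have hB := h.B_ge
  have he1 := island_e1 h hz2 hX
  obtain ⟨sb, sg, st, -, -⟩ := island_sizes h hz hz2 he1
  obtain ⟨l1, l2⟩ := island_lower_hyps h hz hz2 he1
  have q := island_quad h hz hz2 hX a m
  generalize islandMu η C y z e1 = M at *
  have z0 : 0 ≤ z ^ 2 := sq_nonneg z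
  have k10 : 10 * z ^ 2 ≤ 200 * B * z ^ 2 := mul_le_mul_of_nonneg_right (by linarith) z0
  have l := lower_bound (C := C) (M := M) (K := 200 * B) (μ := 1 / 64)
    (ν' := 1 / 640) (by linarith) hη (by linarith) (by norm_num) (by norm_num)
    (show z ^ 2 ≤ 4 by nlinarith) z0 l1 l2
    (sb.trans k10) (sg.trans k10) (st.trans k10) a m w R
  have r0 : 0 ≤ z ^ 4 * m ^ 2 := by positivity
  have r1 : η * (z ^ 4 * m ^ 2) ≤ 1 * (z ^ 4 * m ^ 2) :=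
    mul_le_mul_of_nonneg_right (by linarith) r0
  have r2 : 0 ≤ η * (z ^ 4 * a ^ 2) := by positivity
  have r3 : (4 * (200 * B) + (200 * B) ^ 2 / (2 * (1 / 64)) + (200 * B) ^ 2 / (2 * (1 / 640)))
      * (w ^ 2 + R ^ 2) ≤ 20000000 * B ^ 2 * (w ^ 2 + R ^ 2) := by
    refine mul_le_mul_of_nonneg_right ?_ (by positivity)
    have : B * 1 ≤ B * B := mul_le_mul_of_nonneg_left hB (by linarith)
    ring_nf at this ⊢
    linarith
  linarith

end Vale.Agent.P229.Edge
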