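import Vale.Agent.P229.Edge.Algebra

/-
P229, EdgeSpec: cut off multipliers and the elliptic ring.
-/

namespace Vale.Agent.P229.Edge

/-- A multiplier times a cutoff with value `χ` and derivatives `χp`, `χy`. -/
def cutMu (χ χp χy : ℝ) (M : Mu) : Mu where
  b := χ * M.b
  bp := χp * M.b + χ * M.bp
  by' := χy * M.b + χ * M.by'
  γ := χ * M.γ
  γp := χp * M.γ + χ * M.γp
  γy := χy * M.γ + χ * M.γy
  τ := χ * M.τ
  τp := χp * M.τ + χ * M.τp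
  τy := χy * M.τ + χ * M.τy

/-- The part of `cutMu` with derivatives on the cutoff. -/
def derMu (χp χy : ℝ) (M : Mu) : Mu where
  b := 0
  bp := χp * M.b
  by' := χy * M.b
  γ := 0
  γp := χp * M.γ
  γy := χy * M.γ
  τ := 0
  τp := χp * M.τ
  τy := χy * M.τ

/-- The multiplier `(0, 0, ω^2)`. -/
def ringMu (ω ωp ωy : ℝ) : Mu where
  b := 0
  bp := 0
  by' := 0
  γ := 0
  γp := 0
  γy := 0
  τ := ω * ω
  τp := ωp * ω + ω * ωp
  τy := ωy * ω + ω * ωy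

lemma form_cut (η χ χp χy : ℝ) (C : Co) (M : Mu) (a m w R : ℝ) :
    form η C (cutMu χ χp χy M) a m w R
      = χ * form η C M a m w R + form η C (derMu χp χy M) a m w R := by
  simp only [form, cutMu, derMu]
  ring

lemma abs_mul_le_sq (a b : ℝ) : |a * b| ≤ (a ^ 2 + b ^ 2) / 2 := by
  rw [abs_le]
  constructor <;> nlinarith [sq_nonneg (a + b), sq_nonneg (a - b)]

lemma abs_form_derMu {η χp χy P : ℝ} {C : Co} {M : Mu} (hη : 0 < η) (hη1 : η ≤ 1)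
    (hp : |χp| ≤ P) (hy : |χy| ≤ P) (hb : |M.b| ≤ 40) (hg : |M.γ| ≤ 40) (ht : |M.τ| ≤ 40)
    (hκ : |C.κ| ≤ 4) (hν : |C.ν| ≤ 1) (a m w R : ℝ) :
    |form η C (derMu χp χy M) a m w R| ≤ 1000 * P * (a ^ 2 + m ^ 2 + w ^ 2) := by
  have hP : 0 ≤ P := (abs_nonneg _).trans hp
  have b1 := abs_mul' hp hb
  have b2 := abs_mul' hy hb
  have g1 := abs_mul' hp hg
  have g2 := abs_mul' hy hg
  have t1 := abs_mul' hp ht
  have t2 := abs_mul' hy ht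
  have hηa : |η| ≤ 1 := (abs_of_pos hη).le.trans hη1
  have e : form η C (derMu χp χy M) a m w R
      = (χp * M.b / 2 - χy * M.γ / 2 - η * (χp * M.γ * C.ν) / 2) * m ^ 2
        + (-(χy * M.b) - η * (χp * M.γ * C.κ)) * (a * m)
        + η * (-(χp * M.b * C.κ) / 2 - χy * M.b * C.ν / 2 + χy * M.γ * C.κ / 2) * a ^ 2
        + χy * M.τ * (w * m)
        + η * (χp * M.τ * C.κ + χy * M.τ * C.ν) * (w * a) := by
    simp only [form, derMu]; ring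
  rw [e]
  have hsq : ∀ x : ℝ, |x ^ 2| ≤ x ^ 2 := fun x => (abs_of_nonneg (sq_nonneg x)).le
  have u1 := abs_mul' (abs_sub' (abs_sub' (abs_div' b1 two_pos) (abs_div' g2 two_pos))
    (abs_div' (abs_mul' hηa (abs_mul' g1 hν)) two_pos)) (hsq m)
  have u2 := abs_mul' (abs_sub' ((abs_neg _).le.trans b2) (abs_mul' hηa (abs_mul' g1 hκ)))
    (abs_mul_le_sq a m)
  have u3 := abs_mul' (abs_mul' hηa (abs_add' (abs_sub'
    (abs_div' ((abs_neg _).le.trans (abs_mul' b1 hκ)) two_pos)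
    (abs_div' (abs_mul' b2 hν) two_pos)) (abs_div' (abs_mul' g2 hκ) two_pos))) (hsq a)
  have u4 := abs_mul' t2 (abs_mul_le_sq w m)
  have u5 := abs_mul' (abs_mul' hηa (abs_add' (abs_mul' t1 hκ) (abs_mul' t2 hν)))
    (abs_mul_le_sq w a)
  refine (abs_add' (abs_add' (abs_add' (abs_add' u1 u2) u3) u4) u5).trans ?_
  have := mul_nonneg hP (sq_nonneg a)
  have := mul_nonneg hP (sq_nonneg m)
  have := mul_nonneg hP (sq_nonneg w)
  linarith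

lemma cross_bound {x K μ : ℝ} (hμ : 0 < μ) (hx : |x| ≤ K) (ω u v : ℝ) :
    -(μ * ω ^ 2 * u ^ 2 + K ^ 2 / (4 * μ) * v ^ 2) ≤ x * ω * v * u := by
  have h1 : |x * ω * v * u| ≤ K * |ω| * |v| * |u| :=
    abs_mul' (abs_mul' (abs_mul' hx le_rfl) le_rfl) le_rfl
  have h3 : 0 ≤ (2 * μ * |ω| * |u| - K * |v|) ^ 2 / (4 * μ) := by positivity
  have h4 : (2 * μ * |ω| * |u| - K * |v|) ^ 2 / (4 * μ)
      = μ * |ω| ^ 2 * |u| ^ 2 + K ^ 2 / (4 * μ) * |v| ^ 2 - K * |ω| * |v| * |u| := by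
    field_simp; ring
  rw [sq_abs, sq_abs, sq_abs] at h4
  have := (abs_le.1 h1).1
  linarith

/-- The form of the ring multiplier. -/
lemma ring_bound {η ω ωp ωy B W : ℝ} {C : Co} (hη : 0 < η) (hη1 : η ≤ 1)
    (hκ : 0.09 ≤ C.κ) (hν : |C.ν| ≤ 1 / 100) (hω : |ω| ≤ 1) (hB : 1 ≤ B) (hW : 0 ≤ W)
    (hωp : |ωp| ≤ W) (hωy : |ωy| ≤ W) (hκ4 : |C.κ| ≤ 4) (hκp : |C.κp| ≤ 5) (hνy : |C.νy| ≤ 1)
    (hG : |C.G| ≤ B) (hG1 : |C.G1| ≤ B) (a m w R : ℝ) :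
    η / 200 * ω ^ 2 * (a ^ 2 + m ^ 2) - 100 * (12 * W + 7 * B) ^ 2 * (w ^ 2 + R ^ 2)
      ≤ form η C (ringMu ω ωp ωy) a m w R := by
  have hηa : |η| ≤ 1 := (abs_of_pos hη).le.trans hη1
  have e : form η C (ringMu ω ωp ωy) a m w R
      = ω ^ 2 * m ^ 2 + η * C.ν * ω ^ 2 * (a * m) + η * C.κ * ω ^ 2 * a ^ 2
        + (2 * ωy - η * ω * C.G1) * ω * w * m
        + η * ((2 * ωp * C.κ + ω * C.κp + (2 * ωy * C.ν + ω * C.νy) - ω * C.G) * ω * w * a)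
        - η * (ω * ω * (w * R)) := by
    simp only [form, ringMu]; ring
  rw [e]
  have h2 : |(2 : ℝ)| ≤ 2 := by norm_num
  have k1 : |2 * ωy - η * ω * C.G1| ≤ 12 * W + 7 * B :=
    (abs_sub' (abs_mul' h2 hωy) (abs_mul' (abs_mul' hηa hω) hG1)).trans (by linarith)
  have k2 : |2 * ωp * C.κ + ω * C.κp + (2 * ωy * C.ν + ω * C.νy) - ω * C.G| ≤ 12 * W + 7 * B :=
    (abs_sub' (abs_add' (abs_add' (abs_mul' (abs_mul' h2 hωp) hκ4) (abs_mul' hω hκp))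
      (abs_add' (abs_mul' (abs_mul' h2 hωy) hν) (abs_mul' hω hνy)))
      (abs_mul' hω hG)).trans (by linarith)
  have y1 := cross_bound (show (0 : ℝ) < 1 / 8 by norm_num) k1 ω m w
  have y2 := mul_le_mul_of_nonneg_left
    (cross_bound (show (0 : ℝ) < 1 / 100 by norm_num) k2 ω a w) hη.le
  have y3 : |η * (C.ν * ω ^ 2 * (a * m))| ≤ η * (1 / 100 * ω ^ 2 * ((a ^ 2 + m ^ 2) / 2)) :=
    abs_mul' (abs_of_pos hη).le
      (abs_mul' (abs_mul' hν (abs_of_nonneg (sq_nonneg ω)).le) (abs_mul_le_sq a m))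
  have y4 := abs_mul' hηa (abs_mul' (abs_mul' hω hω) (abs_mul_le_sq w R))
  have y5 := mul_le_mul_of_nonneg_left hκ (show 0 ≤ η * ω ^ 2 * a ^ 2 by positivity)
  have hm : η * (ω ^ 2 * m ^ 2) ≤ 1 * (ω ^ 2 * m ^ 2) :=
    mul_le_mul_of_nonneg_right hη1 (by positivity)
  have hK : η * ((12 * W + 7 * B) ^ 2 * w ^ 2) ≤ 1 * ((12 * W + 7 * B) ^ 2 * w ^ 2) :=
    mul_le_mul_of_nonneg_right hη1 (by positivity)
  have hK1 : 1 ≤ (12 * W + 7 * B) ^ 2 := one_le_pow₀ (by linarith)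
  have hK2 := mul_le_mul_of_nonneg_right hK1 (show 0 ≤ w ^ 2 + R ^ 2 by positivity)
  have h0 : 0 ≤ (12 * W + 7 * B) ^ 2 * R ^ 2 := by positivity
  have h1 : 0 ≤ η * (ω ^ 2 * a ^ 2) := by positivity
  have h3 : 0 ≤ ω ^ 2 * m ^ 2 := by positivity
  have d1 : (12 * W + 7 * B) ^ 2 / (4 * (1 / 8)) = 2 * (12 * W + 7 * B) ^ 2 := by ring
  have d2 : (12 * W + 7 * B) ^ 2 / (4 * (1 / 100)) = 25 * (12 * W + 7 * B) ^ 2 := by ring
  rw [d1] at y1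
  rw [d2] at y2
  rw [abs_le] at y3 y4
  norm_num at y5
  linarith

end Vale.Agent.P229.Edge
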