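import Vale.Agent.P229.Ident
import Vale.Agent.P229.Edge.Cutoff

/-
P229, EdgeSpec: the multiplier functions and their derivatives.
-/

namespace Vale.Agent.P229.Edge

open scoped ContDiff

/-- `f` has the partial derivatives `u`, `v` at `z`. -/
def PD (f : P2 → ℝ) (z : P2) (u v : ℝ) : Prop :=
  HasFDerivAt f (u • ContinuousLinearMap.fst ℝ ℝ ℝ + v • ContinuousLinearMap.snd ℝ ℝ ℝ) z

variable {f g : P2 → ℝ} {z : P2} {u v u' v' : ℝ}

lemma PD.dp_eq (h : PD f z u v) : dp f z = u := by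
  unfold dp; rw [HasFDerivAt.fderiv h]; simp

lemma PD.dy_eq (h : PD f z u v) : dy f z = v := by
  unfold dy; rw [HasFDerivAt.fderiv h]; simp

lemma PD.of (h : DifferentiableAt ℝ f z) : PD f z (dp f z) (dy f z) := by
  have e : fderiv ℝ f z = dp f z • ContinuousLinearMap.fst ℝ ℝ ℝ
      + dy f z • ContinuousLinearMap.snd ℝ ℝ ℝ := by
    ext <;> simp [dp, dy]
  unfold PD; rw [← e]; exact h.hasFDerivAt

lemma PD.cast (h : PD f z u v) (hu : u = u') (hv : v = v') : PD f z u' v' := hu ▸ hv ▸ h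

lemma PD.const (c : ℝ) : PD (fun _ => c) z 0 0 := by
  simpa [PD] using hasFDerivAt_const (𝕜 := ℝ) c z

lemma PD.fst : PD (fun x => x.1) z 1 0 := by
  simpa [PD] using (hasFDerivAt_fst (𝕜 := ℝ) (E := ℝ) (F := ℝ) (p := z))

lemma PD.snd : PD (fun x => x.2) z 0 1 := by
  simpa [PD] using (hasFDerivAt_snd (𝕜 := ℝ) (E := ℝ) (F := ℝ) (p := z))

lemma PD.add (hf : PD f z u v) (hg : PD g z u' v') :
    PD (fun x => f x + g x) z (u + u') (v + v') := by
  refine (HasFDerivAt.add hf hg).congr_fderiv ?_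
  ext <;> simp

lemma PD.sub (hf : PD f z u v) (hg : PD g z u' v') :
    PD (fun x => f x - g x) z (u - u') (v - v') := by
  refine (HasFDerivAt.sub hf hg).congr_fderiv ?_
  ext <;> simp

lemma PD.neg (hf : PD f z u v) : PD (fun x => -f x) z (-u) (-v) := by
  refine (HasFDerivAt.neg hf).congr_fderiv ?_
  ext <;> simp

lemma PD.mul (hf : PD f z u v) (hg : PD g z u' v') :
    PD (fun x => f x * g x) z (u * g z + f z * u') (v * g z + f z * v') := by
  refine (HasFDerivAt.mul hf hg).congr_fderiv ?_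
  ext <;> simp <;> ring

lemma PD.comp {φ : ℝ → ℝ} {d : ℝ} (hφ : HasDerivAt φ d (f z)) (hf : PD f z u v) :
    PD (fun x => φ (f x)) z (d * u) (d * v) := by
  refine (hφ.comp_hasFDerivAt z hf).congr_fderiv ?_
  ext <;> simp

lemma hasDerivAt_pospow (n : ℕ) (x : ℝ) :
    HasDerivAt (fun s : ℝ => max s 0 ^ (n + 2)) (((n : ℝ) + 2) * max x 0 ^ (n + 1)) x := by
  rcases lt_trichotomy x 0 with h | h | h
  · rw [max_eq_right h.le, zero_pow (Nat.succ_ne_zero n), mul_zero]
    refine (hasDerivAt_const x (0 : ℝ)).congr_of_eventuallyEq ?_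
    filter_upwards [eventually_lt_nhds h] with s hs
    rw [max_eq_right hs.le, zero_pow (Nat.succ_ne_zero _)]
  · subst h
    rw [max_self, zero_pow (Nat.succ_ne_zero n), mul_zero]
    have h1 : HasDerivWithinAt (fun s : ℝ => max s 0 ^ (n + 2)) 0 (Set.Iic 0) 0 :=
      (hasDerivWithinAt_const 0 _ (0 : ℝ)).congr
        (fun s hs => by rw [max_eq_right hs, zero_pow (Nat.succ_ne_zero _)]) (by simp)
    have h2 : HasDerivWithinAt (fun s : ℝ => max s 0 ^ (n + 2)) 0 (Set.Ici 0) 0 := by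
      have hp : HasDerivAt (fun s : ℝ => s ^ (n + 2)) 0 0 := by
        simpa using hasDerivAt_pow (n + 2) (0 : ℝ)
      exact hp.hasDerivWithinAt.congr (fun s hs => by rw [max_eq_left hs]) (by simp)
    have := h1.union h2
    rw [Set.Iic_union_Ici] at this
    exact this.hasDerivAt Filter.univ_mem
  · rw [max_eq_left h.le]
    have hp : HasDerivAt (fun s : ℝ => s ^ (n + 2)) (((n : ℝ) + 2) * x ^ (n + 1)) x := by
      simpa using hasDerivAt_pow (n + 2) x
    refine hp.congr_of_eventuallyEq ?_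
    filter_upwards [eventually_gt_nhds h] with s hs
    rw [max_eq_left hs.le]

lemma contDiff_pospow (n : ℕ) : ContDiff ℝ 1 (fun s : ℝ => max s 0 ^ (n + 2)) := by
  rw [contDiff_one_iff_deriv]
  refine ⟨fun x => (hasDerivAt_pospow n x).differentiableAt, ?_⟩
  rw [funext fun x => (hasDerivAt_pospow n x).deriv]
  fun_prop

/-- The coefficient values at a point. -/
noncomputable def toCo (κ ν G G1 : P2 → ℝ) (z : P2) : Co where
  κ := κ z
  κp := dp κ z
  κy := dy κ z
  ν := ν z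
  νp := dp ν z
  νy := dy ν z
  G := G z
  G1 := G1 z

/-- The multiplier values at a point. -/
noncomputable def toMu (b γ τ : P2 → ℝ) (z : P2) : Mu where
  b := b z
  bp := dp b z
  by' := dy b z
  γ := γ z
  γp := dp γ z
  γy := dy γ z
  τ := τ z
  τp := dp τ z
  τy := dy τ z

lemma qform_eq {η : ℝ} {κ ν G G1 R w b γ τ : P2 → ℝ} (hk : DifferentiableAt ℝ κ z)
    (hn : DifferentiableAt ℝ ν z) (hb : DifferentiableAt ℝ b z) (hg : DifferentiableAt ℝ γ z)
    (ht : DifferentiableAt ℝ τ z) :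
    qform η κ ν G G1 R w b γ τ z
      = form η (toCo κ ν G G1 z) (toMu b γ τ z) (dp w z) (dy w z) (w z) (R z) := by
  simp only [qform, qmm, qam, qaa, qlow, form, toCo, toMu, dp_mul hg hn, dp_mul hg hk,
    dp_mul hb hk, dy_mul hb hn, dy_mul hg hk, dp_mul ht hk, dy_mul ht hn]

/-- The edge curve: height `e0` and prescribed slopes at `ym`, `yp`. -/
def edge (e0 ym yp A A' : ℝ) (y : ℝ) : ℝ :=
  e0 + (y - yp) * (y - ym) * (A * (y - ym) + A' * (y - yp))

/-- Slope of the edge curve. -/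
def edgeD (ym yp A A' : ℝ) (y : ℝ) : ℝ :=
  ((y - ym) + (y - yp)) * (A * (y - ym) + A' * (y - yp)) + (y - yp) * (y - ym) * (A + A')

variable {e0 ym yp A A' η : ℝ} {κ ν G G1 : P2 → ℝ}

lemma hasDerivAt_edge (y : ℝ) : HasDerivAt (edge e0 ym yp A A') (edgeD ym yp A A' y) y := by
  have h1 := (hasDerivAt_id y).sub_const yp
  have h2 := (hasDerivAt_id y).sub_const ym
  have h := ((h1.mul h2).mul ((h2.const_mul A).add (h1.const_mul A'))).const_add e0
  refine h.congr_deriv ?_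
  simp [edgeD]

/-- Depth left of the edge, raised to a power. -/
noncomputable def depth (E : ℝ → ℝ) (n : ℕ) (z : P2) : ℝ := max (E z.2 - z.1) 0 ^ n

/-- The island multiplier of `w_p`. -/
noncomputable def islB (η : ℝ) (E : ℝ → ℝ) (ν : P2 → ℝ) (v : P2) : ℝ :=
  -((1 - η * (v.2 * (1 / 8)) * ν v * (1 / 2)) * depth E 4 v)

/-- The island multiplier of `w_y`. -/
noncomputable def islG (E : ℝ → ℝ) (v : P2) : ℝ := v.2 * (1 / 8) * depth E 4 v

/-- The island multiplier of `w`. -/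
noncomputable def islT (η : ℝ) (E : ℝ → ℝ) (κ ν : P2 → ℝ) (v : P2) : ℝ :=
  4 * depth E 3 v * (1 / 2 + 1 / 1024 * (κ v - η * (ν v * ν v) * (1 / 4)))
    - 1 / 8 * depth E 4 v

lemma pd_depth {E : ℝ → ℝ} {e1 : ℝ} (hE : HasDerivAt E e1 z.2) (n : ℕ) :
    PD (depth E (n + 2)) z (-(((n : ℝ) + 2) * depth E (n + 1) z))
      (((n : ℝ) + 2) * depth E (n + 1) z * e1) := by
  have h1 : PD (fun x : P2 => E x.2 - x.1) z (e1 * 0 - 1) (e1 * 1 - 0) :=
    (PD.comp (f := fun x : P2 => x.2) hE PD.snd).sub PD.fst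
  exact (PD.comp (f := fun x : P2 => E x.2 - x.1) (hasDerivAt_pospow n (E z.2 - z.1)) h1).cast
    (by simp only [depth]; ring) (by simp only [depth]; ring)

lemma toMu_island {E : ℝ → ℝ} {e1 : ℝ} (hE : HasDerivAt E e1 z.2) (hk : DifferentiableAt ℝ κ z)
    (hn : DifferentiableAt ℝ ν z) :
    toMu (islB η E ν) (islG E) (islT η E κ ν) z
      = islandMu η (toCo κ ν G G1 z) z.2 (max (E z.2 - z.1) 0) e1 := by
  have d4 : PD (depth E 4) z _ _ := pd_depth hE 2
  have d3 : PD (depth E 3) z _ _ := pd_depth hE 1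
  have nd := PD.of hn
  have kd := PD.of hk
  have g8 : PD (fun x : P2 => x.2 * (1 / 8)) z _ _ := PD.snd.mul (PD.const (1 / 8))
  have hB : PD (islB η E ν) z _ _ :=
    (((PD.const 1).sub ((((PD.const η).mul g8).mul nd).mul (PD.const (1 / 2)))).mul d4).neg
  have hG : PD (islG E) z _ _ := g8.mul d4
  have hT : PD (islT η E κ ν) z _ _ :=
    (((PD.const 4).mul d3).mul ((PD.const (1 / 2)).add ((PD.const (1 / 1024)).mul
      (kd.sub (((PD.const η).mul (nd.mul nd)).mul (PD.const (1 / 4))))))).sub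
      ((PD.const (1 / 8)).mul d4)
  simp only [toMu, hB.dp_eq, hB.dy_eq, hG.dp_eq, hG.dy_eq, hT.dp_eq, hT.dy_eq, islandMu, toCo,
    Mu.mk.injEq]
  simp only [islB, islG, islT, depth]
  refine ⟨?_, ?_, ?_, ?_, ?_, ?_, ?_, ?_, ?_⟩ <;> push_cast <;> ring

lemma contDiff_depth {E : ℝ → ℝ} (hE : ContDiff ℝ 1 E) (n : ℕ) :
    ContDiff ℝ 1 (depth E (n + 2)) :=
  (contDiff_pospow n).comp ((hE.comp contDiff_snd).sub contDiff_fst)

lemma contDiff_island {E : ℝ → ℝ} (hE : ContDiff ℝ 1 E) (hk : ContDiff ℝ 1 κ)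
    (hn : ContDiff ℝ 1 ν) :
    ContDiff ℝ 1 (islB η E ν) ∧ ContDiff ℝ 1 (islG E) ∧ ContDiff ℝ 1 (islT η E κ ν) := by
  have h4 := contDiff_depth hE 2
  have h3 := contDiff_depth hE 1
  have hs : ContDiff ℝ 1 (fun x : P2 => x.2 * (1 / 8)) := contDiff_snd.mul contDiff_const
  refine ⟨?_, hs.mul h4, ?_⟩
  · exact ((contDiff_const.sub (((contDiff_const.mul hs).mul hn).mul contDiff_const)).mul h4).neg
  · exact ((contDiff_const.mul h3).mul (contDiff_const.add (contDiff_const.mul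
      (hk.sub ((contDiff_const.mul (hn.mul hn)).mul contDiff_const))))).sub
      (contDiff_const.mul h4)

lemma toMu_cut {χ b γ τ : P2 → ℝ} (hχ : DifferentiableAt ℝ χ z) (hb : DifferentiableAt ℝ b z)
    (hg : DifferentiableAt ℝ γ z) (ht : DifferentiableAt ℝ τ z) :
    toMu (fun v => χ v * b v) (fun v => χ v * γ v) (fun v => χ v * τ v) z
      = cutMu (χ z) (dp χ z) (dy χ z) (toMu b γ τ z) := by
  simp only [toMu, cutMu, dp_mul hχ hb, dy_mul hχ hb, dp_mul hχ hg, dy_mul hχ hg, dp_mul hχ ht,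
    dy_mul hχ ht]

lemma toMu_ring {om : P2 → ℝ} (hom : DifferentiableAt ℝ om z) :
    toMu (fun _ => 0) (fun _ => 0) (fun v => om v * om v) z
      = ringMu (om z) (dp om z) (dy om z) := by
  have h0 : PD (fun _ : P2 => (0 : ℝ)) z 0 0 := PD.const 0
  simp only [toMu, ringMu, dp_mul hom hom, dy_mul hom hom, h0.dp_eq, h0.dy_eq]

end Vale.Agent.P229.Edge
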